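import Mathlib

/-!
Abstract quasi-compactness of a perturbed semigroup.
-/

open Set Filter Topology MeasureTheory

namespace Vale.Agent.P139Z.QC

variable {X : Type*} [NormedAddCommGroup X] [NormedSpace ℂ X]

/-- Integrals of functions with values in multiples of a closed convex set. -/
theorem integral_mem_of_convex [CompleteSpace X] {Ω : Type*} [MeasurableSpace Ω] {μ : Measure Ω}
    {C : Set X} (hC : Convex ℝ C) (hc : IsClosed C) (h0 : (0 : X) ∈ C) {f : Ω → X} {ρ : Ω → ℝ}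
    (hf : Integrable f μ) (hρ : Integrable ρ μ) (h1 : ∫ ω, ρ ω ∂μ ≤ 1)
    (h : ∀ᵐ ω ∂μ, 0 ≤ ρ ω ∧ ∃ v ∈ C, f ω = ρ ω • v) : ∫ ω, f ω ∂μ ∈ C := by
  by_contra hn
  obtain ⟨l, u, h2, h3⟩ := geometric_hahn_banach_closed_point hC hc hn
  have hu : 0 ≤ u := by simpa using (h2 0 h0).le
  rw [← l.integral_comp_comm hf] at h3
  have h4 : ∫ ω, l (f ω) ∂μ ≤ ∫ ω, ρ ω * u ∂μ := by
    refine integral_mono_ae (l.integrable_comp hf) (hρ.mul_const u) (h.mono ?_)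
    rintro ω ⟨h5, v, hv, h6⟩
    simp only [h6, map_smul, smul_eq_mul]
    exact mul_le_mul_of_nonneg_left (h2 v hv).le h5
  rw [integral_mul_const] at h4
  nlinarith

theorem isCompact_hull [CompleteSpace X] {C : Set X} (hC : IsCompact C) :
    IsCompact (closure (convexHull ℝ C)) :=
  hC.totallyBounded.convexHull.closure.isCompact_of_isClosed isClosed_closure

/-- The image of the unit ball is covered by finitely many balls of radius `c`. -/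
def Cov (N : Seminorm ℂ X) (L : X → X) (c : ℝ) : Prop :=
  ∃ A : Set X, A.Finite ∧ ∀ x, N x ≤ 1 → ∃ a ∈ A, N (L x - a) ≤ c

theorem Cov.mul {N : Seminorm ℂ X} {L₁ : X →L[ℂ] X} {L₂ : X → X} {c₁ c₂ : ℝ} (h₁ : Cov N L₁ c₁)
    (h₂ : Cov N L₂ c₂) (hc : 0 < c₂) : Cov N (fun x => L₁ (L₂ x)) (c₁ * c₂) := by
  obtain ⟨A₁, hA₁, h₁⟩ := h₁
  obtain ⟨A₂, hA₂, h₂⟩ := h₂
  refine ⟨_, hA₁.image2 (fun a b => L₁ b + (c₂ : ℂ) • a) hA₂, fun x hx => ?_⟩
  obtain ⟨b, hb, h3⟩ := h₂ x hx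
  have hc' : (c₂ : ℂ) ≠ 0 := by exact_mod_cast hc.ne'
  have hn : ‖(c₂ : ℂ)‖ = c₂ := by rw [Complex.norm_real, Real.norm_of_nonneg hc.le]
  obtain ⟨a, ha, h4⟩ := h₁ ((c₂ : ℂ)⁻¹ • (L₂ x - b)) (by
    rw [map_smul_eq_mul, norm_inv, hn]
    exact inv_mul_le_one_of_le₀ h3 hc.le)
  refine ⟨_, mem_image2_of_mem ha hb, ?_⟩
  have h5 : L₁ (L₂ x) - (L₁ b + (c₂ : ℂ) • a) =
      (c₂ : ℂ) • (L₁ ((c₂ : ℂ)⁻¹ • (L₂ x - b)) - a) := by
    rw [smul_sub, map_smul, smul_inv_smul₀ hc', map_sub]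
    abel
  rw [h5, map_smul_eq_mul, hn, mul_comm]
  exact mul_le_mul_of_nonneg_right h4 hc.le

theorem Cov.pow {N : Seminorm ℂ X} {S : ℝ → X →L[ℂ] X} (hS0 : ∀ x, S 0 x = x)
    (hSadd : ∀ s t x, S (s + t) x = S s (S t x)) {h c : ℝ} (hc : 0 < c) (h1 : Cov N (S h) c)
    (n : ℕ) : Cov N (S (n * h)) (c ^ n) := by
  induction n with
  | zero => exact ⟨{0}, finite_singleton 0, fun x hx => ⟨0, rfl, by simpa [hS0] using hx⟩⟩
  | succ n ih =>
    have h2 := h1.mul ih (pow_pos hc n)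
    rw [← pow_succ'] at h2
    have h3 : (S (((n + 1 : ℕ) : ℝ) * h) : X → X) = fun x => S h (S (n * h) x) := by
      funext x
      rw [← hSadd]
      congr 2
      push_cast
      ring
    rwa [h3]

theorem Cov.qc {N : Seminorm ℂ X} {L : X →L[ℂ] X} {c R : ℝ} (hR : 0 < R) (h : Cov N L c)
    (h1 : ∀ x, ‖x‖ ≤ N x) (h2 : ∀ x, N x ≤ R * ‖x‖) :
    ∃ (n : ℕ) (l : Fin n → X →L[ℂ] ℂ), ∀ x, ‖L x‖ ≤ 2 * c * R * ‖x‖ + 1 * ∑ i, ‖l i x‖ := by
  obtain ⟨A, hA, h⟩ := h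
  obtain ⟨n, e, -, he⟩ := hA.fin_param
  choose φ hφ hφ' using fun a : X => exists_dual_vector'' ℂ a
  refine ⟨n, fun i => (φ (e i)).comp L, fun x => ?_⟩
  rcases eq_or_ne x 0 with rfl | hx
  · simp
  have hr : 0 < R * ‖x‖ := mul_pos hR (norm_pos_iff.2 hx)
  have hn : ‖((R * ‖x‖ : ℝ) : ℂ)⁻¹‖ = (R * ‖x‖)⁻¹ := by
    rw [norm_inv, Complex.norm_real, Real.norm_of_nonneg hr.le]
  obtain ⟨a, ha, h3⟩ := h (((R * ‖x‖ : ℝ) : ℂ)⁻¹ • x) (by
    rw [map_smul_eq_mul, hn]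
    exact inv_mul_le_one_of_le₀ (h2 x) hr.le)
  obtain ⟨i, rfl⟩ := he.symm.subset ha
  replace h3 := (h1 _).trans h3
  set y := L (((R * ‖x‖ : ℝ) : ℂ)⁻¹ • x) with hy
  have h4 : ‖y‖ ≤ 2 * c + ‖φ (e i) y‖ := by
    have h5 : ‖e i‖ = ‖φ (e i) (e i)‖ := by rw [hφ']; simp
    have h6 : ‖φ (e i) (y - e i)‖ ≤ c :=
      ((φ (e i)).le_of_opNorm_le (hφ _) _).trans (by rwa [one_mul])
    have h7 := norm_sub_norm_le y (e i)
    have h8 := norm_sub_norm_le (φ (e i) (e i)) (φ (e i) y)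
    rw [norm_sub_rev, ← map_sub] at h8
    linarith
  rw [hy, map_smul, map_smul, norm_smul, norm_smul, hn] at h4
  have h9 : ‖φ (e i) (L x)‖ ≤ ∑ j, ‖((φ (e j)).comp L) x‖ :=
    Finset.single_le_sum (f := fun j => ‖((φ (e j)).comp L) x‖) (fun _ _ => norm_nonneg _)
      (Finset.mem_univ i)
  have h10 := mul_le_mul_of_nonneg_left h4 hr.le
  rw [mul_add, mul_inv_cancel_left₀ hr.ne', mul_inv_cancel_left₀ hr.ne'] at h10
  linarith

theorem exists_step {g b C : ℝ} (hb : 0 ≤ b) (hbg : b < g) (hC : 0 ≤ C) :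
    ∃ h : ℝ, 0 < h ∧ h ≤ 1 ∧ Real.exp (-g * h) + h * (b * (1 + C * h)) < 1 := by
  have hg : 0 < g := hb.trans_lt hbg
  have hq : 0 < g ^ 2 + b * C + 1 := by positivity
  refine ⟨min 1 ((g - b) / (g ^ 2 + b * C + 1)), lt_min one_pos (div_pos (sub_pos.2 hbg) hq),
    min_le_left _ _, ?_⟩
  set h := min 1 ((g - b) / (g ^ 2 + b * C + 1))
  have h0 : 0 < h := lt_min one_pos (div_pos (sub_pos.2 hbg) hq)
  have h1 : h * (g ^ 2 + b * C + 1) ≤ g - b := (le_div_iff₀ hq).1 (min_le_right _ _)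
  have h2 : Real.exp (-g * h) ≤ 1 - g * h + (g * h) ^ 2 := by
    have h3 := Real.add_one_le_exp (g * h)
    have h4 : 0 < g * h := mul_pos hg h0
    rw [neg_mul, Real.exp_neg]
    refine (inv_anti₀ (by linarith) h3).trans ?_
    rw [inv_le_iff_one_le_mul₀ (by linarith)]
    nlinarith [pow_pos h4 3]
  nlinarith [mul_le_mul_of_nonneg_left h1 h0.le, mul_pos h0 h0]

variable [CompleteSpace X]

theorem abstract_qc (T S : ℝ → X →L[ℂ] X) (B : X →L[ℂ] X) (p : Seminorm ℂ X)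
    (hp : ∀ x, p x ≤ ‖x‖) {a g b D : ℝ} (ha : 0 < a) (hb : 0 ≤ b) (hbg : b < g) (hD : 0 ≤ D)
    (hTc : Continuous fun q : ℝ × X => T q.1 q.2)
    (hT1 : ∀ t, 0 ≤ t → ∀ x, ‖T t x‖ ≤ ‖x‖)
    (hT2 : ∀ t, 0 ≤ t → ∀ x, p (T t x) ≤ Real.exp (-a * t) * p x)
    (hT3 : ∀ t, 0 ≤ t → ∀ x, ‖T t x‖ ≤ Real.exp (-g * t) * ‖x‖ + D * p x)
    (hS0 : ∀ x, S 0 x = x) (hSadd : ∀ s t x, S (s + t) x = S s (S t x))
    (hSc : ∀ x, Continuous fun s => S s x)
    (hDuh : ∀ s x, S s x = T s x + ∫ r in (0 : ℝ)..s, T (s - r) (B (S r x)))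
    (hB : ∀ ε > 0, ∃ K : X →L[ℂ] X, (∀ R : ℝ, ∃ C : Set X, IsCompact C ∧ ∀ x, ‖x‖ ≤ R → K x ∈ C) ∧
      (∀ x, ‖B x - K x‖ ≤ b * ‖x‖) ∧ ∀ x, p (B x - K x) ≤ ε * ‖x‖) :
    ∃ (τ θ C : ℝ) (n : ℕ) (l : Fin n → (X →L[ℂ] ℂ)), 0 < τ ∧ θ < 1 ∧
      ∀ x, ‖S τ x‖ ≤ θ * ‖x‖ + C * ∑ i, ‖l i x‖ := by
  obtain ⟨M₁, hM₁⟩ := banach_steinhaus (g := fun r : Icc (0 : ℝ) 1 => S r) fun x => by
    obtain ⟨C, hC⟩ := isCompact_Icc.exists_bound_of_continuousOn (s := Icc (0 : ℝ) 1)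
      (hSc x).continuousOn
    exact ⟨C, fun r => hC r r.2⟩
  have hM0 : 0 ≤ M₁ := (norm_nonneg _).trans (hM₁ ⟨0, le_rfl, zero_le_one⟩)
  have hM₂ : ∀ r ∈ Icc (0 : ℝ) 1, ∀ x, ‖S r x‖ ≤ M₁ * ‖x‖ := fun r hr x =>
    (S r).le_of_opNorm_le (hM₁ ⟨r, hr⟩) x
  obtain ⟨h, h0, h1, hc₁⟩ := exists_step hb hbg (mul_nonneg (norm_nonneg B) hM0)
  set q := 1 + ‖B‖ * M₁ * h with hq
  have hq0 : 0 < q := by positivity
  have hS1 : ∀ r ∈ Icc (0 : ℝ) h, ∀ x, ‖S r x‖ ≤ q * ‖x‖ := by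
    intro r hr x
    have h2 : ‖∫ u in (0 : ℝ)..r, T (r - u) (B (S u x))‖ ≤ ‖B‖ * (M₁ * ‖x‖) * |r - 0| := by
      refine intervalIntegral.norm_integral_le_of_norm_le_const fun u hu => ?_
      rw [uIoc_of_le hr.1] at hu
      exact (hT1 _ (sub_nonneg.2 hu.2) _).trans (B.le_opNorm_of_le
        (hM₂ u ⟨hu.1.le, hu.2.trans (hr.2.trans h1)⟩ x))
    rw [sub_zero, abs_of_nonneg hr.1] at h2
    rw [hDuh]
    refine (norm_add_le _ _).trans ((add_le_add (hT1 r hr.1 x) h2).trans ?_)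
    have h3 : ‖B‖ * (M₁ * ‖x‖) * r ≤ ‖B‖ * (M₁ * ‖x‖) * h :=
      mul_le_mul_of_nonneg_left hr.2 (by positivity)
    rw [hq]
    nlinarith
  set c₁ := Real.exp (-g * h) + h * (b * q) with hc₁'
  have he : Real.exp (-a * h) < 1 := Real.exp_lt_one_iff.2 (by nlinarith)
  have he0 : 0 < Real.exp (-a * h) := Real.exp_pos _
  set M := 2 * D / (1 - Real.exp (-a * h)) + 1 with hM
  have hM1 : 0 < M := by have := sub_pos.2 he; positivity
  have hM2 : D + M * Real.exp (-a * h) ≤ (1 + Real.exp (-a * h)) / 2 * M := by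
    have h2 : M * (1 - Real.exp (-a * h)) = 2 * D + (1 - Real.exp (-a * h)) := by
      rw [hM, add_mul, div_mul_cancel₀ _ (sub_pos.2 he).ne', one_mul]
    nlinarith
  obtain ⟨K, hK1, hK2, hK3⟩ := hB ((1 - c₁) / (2 * (M * h * q)))
    (div_pos (sub_pos.2 hc₁) (by positivity))
  set ε := (1 - c₁) / (2 * (M * h * q)) with hε
  have hε0 : 0 < ε := div_pos (sub_pos.2 hc₁) (by positivity)
  have hε1 : M * h * q * ε = (1 - c₁) / 2 := by
    rw [hε]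
    field_simp
  let M' : NNReal := ⟨M, hM1.le⟩
  let N : Seminorm ℂ X := normSeminorm ℂ X + M' • p
  have hN : ∀ x, N x = ‖x‖ + M * p x := fun x => rfl
  have hN1 : ∀ x, ‖x‖ ≤ N x := fun x => by
    rw [hN]
    exact le_add_of_nonneg_right (mul_nonneg hM1.le (apply_nonneg p x))
  have hN2 : ∀ x, N x ≤ (1 + M) * ‖x‖ := fun x => by
    rw [hN, add_mul 1 M, one_mul]
    exact add_le_add le_rfl (mul_le_mul_of_nonneg_left (hp x) hM1.le)
  have hNc : Continuous N :=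
    Seminorm.continuous_of_le (q := (1 + M') • normSeminorm ℂ X)
      (continuous_const.mul continuous_norm) hN2
  obtain ⟨C₀, hC₀, hC₀'⟩ := hK1 q
  let C₁ := insert 0 ((fun z : ℝ × X => (h : ℝ) • T z.1 z.2) '' (Icc 0 h ×ˢ C₀))
  have hC₁ : IsCompact C₁ := ((isCompact_Icc.prod hC₀).image (hTc.const_smul h)).insert 0
  set c₂ := max ((1 + c₁) / 2) ((1 + Real.exp (-a * h)) / 2) with hc₂
  have hc₂1 : c₂ < 1 := max_lt (by linarith) (by linarith)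
  have hc₂0 : 0 < c₂ := lt_max_of_lt_right (by positivity)
  obtain ⟨A, hA, hA'⟩ := Metric.totallyBounded_iff.1 (isCompact_hull hC₁).totallyBounded
    ((1 - c₂) / (2 * (1 + M))) (div_pos (sub_pos.2 hc₂1) (by positivity))
  have hμ : ∫ _ in Ioc 0 h, h⁻¹ ≤ 1 := by simp [h0.le, h0.ne']
  have hcov : Cov N (S h) ((1 + c₂) / 2) := by
    refine ⟨A, hA, fun x hx => ?_⟩
    have hx1 : ‖x‖ ≤ 1 := (hN1 x).trans hx
    have hcont : ∀ L : X →L[ℂ] X, IntegrableOn (fun r => T (h - r) (L (S r x))) (Ioc 0 h) :=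
      fun L => (hTc.comp ((continuous_const.sub continuous_id).prodMk
        (L.continuous.comp (hSc x)))).integrableOn_Icc.mono_set Ioc_subset_Icc_self
    have h2 : ∫ r in Ioc 0 h, T (h - r) (K (S r x)) ∈ closure (convexHull ℝ C₁) := by
      refine integral_mem_of_convex (convex_convexHull ℝ C₁).closure isClosed_closure
        (subset_closure (subset_convexHull ℝ C₁ (mem_insert _ _))) (hcont K)
        (integrable_const h⁻¹) hμ ((ae_restrict_mem measurableSet_Ioc).mono fun r hr => ?_)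
      refine ⟨inv_nonneg.2 h0.le, h • T (h - r) (K (S r x)),
        subset_closure (subset_convexHull ℝ C₁ (mem_insert_of_mem _ ⟨(h - r, K (S r x)),
          ⟨⟨sub_nonneg.2 hr.2, sub_le_self _ hr.1.le⟩, hC₀' _ ?_⟩, rfl⟩)),
        (inv_smul_smul₀ h0.ne' _).symm⟩
      exact (hS1 r ⟨hr.1.le, hr.2⟩ x).trans (mul_le_of_le_one_right hq0.le hx1)
    have h3 : ∫ r in Ioc 0 h, T (h - r) ((B - K) (S r x)) ∈
        N.closedBall 0 (h * ((b + M * ε) * (q * ‖x‖))) := by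
      refine integral_mem_of_convex (N.convex_closedBall _ _) ?_ ?_ (hcont (B - K))
        (integrable_const h⁻¹) hμ ((ae_restrict_mem measurableSet_Ioc).mono fun r hr => ?_)
      · rw [Seminorm.closedBall_zero_eq]
        exact isClosed_le hNc continuous_const
      · rw [Seminorm.mem_closedBall_zero, map_zero]
        positivity
      refine ⟨inv_nonneg.2 h0.le, h • T (h - r) ((B - K) (S r x)), ?_,
        (inv_smul_smul₀ h0.ne' _).symm⟩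
      rw [Seminorm.mem_closedBall_zero, ← Complex.coe_smul, map_smul_eq_mul, Complex.norm_real,
        Real.norm_of_nonneg h0.le, hN]
      refine mul_le_mul_of_nonneg_left ?_ h0.le
      have h4 := hS1 r ⟨hr.1.le, hr.2⟩ x
      have h5 := (hT1 _ (sub_nonneg.2 hr.2) _).trans (hK2 (S r x))
      have h6 : p (T (h - r) (B (S r x) - K (S r x))) ≤ ε * ‖S r x‖ :=
        (hT2 _ (sub_nonneg.2 hr.2) _).trans ((mul_le_of_le_one_left (apply_nonneg p _)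
          (Real.exp_le_one_iff.2 (by nlinarith [hr.2]))).trans (hK3 _))
      have h7 : (b + M * ε) * ‖S r x‖ ≤ (b + M * ε) * (q * ‖x‖) :=
        mul_le_mul_of_nonneg_left h4 (by positivity)
      have h8 := mul_le_mul_of_nonneg_left h6 hM1.le
      rw [sub_apply]
      linarith
    obtain ⟨y, hy, h4⟩ := mem_iUnion₂.1 (hA' h2)
    refine ⟨y, hy, ?_⟩
    have h5 : S h x - y = T h x + (∫ r in Ioc 0 h, T (h - r) ((B - K) (S r x))) +
        ((∫ r in Ioc 0 h, T (h - r) (K (S r x))) - y) := by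
      rw [hDuh, intervalIntegral.integral_of_le h0.le]
      simp only [sub_apply, map_sub]
      rw [integral_sub (hcont B) (hcont K)]
      abel
    rw [Seminorm.mem_closedBall_zero] at h3
    rw [Metric.mem_ball, dist_eq_norm, lt_div_iff₀ (by positivity)] at h4
    have h6 := hN2 ((∫ r in Ioc 0 h, T (h - r) (K (S r x))) - y)
    have h7 := hT3 h h0.le x
    have h8 := mul_le_mul_of_nonneg_left (hT2 h h0.le x) hM1.le
    have h9 := mul_le_mul_of_nonneg_right hM2 (apply_nonneg p x)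
    have h10 : (1 + c₁) / 2 * ‖x‖ ≤ c₂ * ‖x‖ :=
      mul_le_mul_of_nonneg_right (le_max_left _ _) (norm_nonneg x)
    have h11 : (1 + Real.exp (-a * h)) / 2 * (M * p x) ≤ c₂ * (M * p x) :=
      mul_le_mul_of_nonneg_right (le_max_right _ _) (mul_nonneg hM1.le (apply_nonneg p x))
    have h12 := mul_le_mul_of_nonneg_left hx hc₂0.le
    have h13 : h * ((b + M * ε) * (q * ‖x‖)) = (h * (b * q) + (1 - c₁) / 2) * ‖x‖ := by
      rw [← hε1]
      ring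
    rw [h5]
    refine (map_add_le_add N _ _).trans ((add_le_add (map_add_le_add N _ _) le_rfl).trans ?_)
    rw [hN] at h12
    rw [hN (T h x)]
    rw [h13] at h3
    have h14 : Real.exp (-g * h) * ‖x‖ + (h * (b * q) + (1 - c₁) / 2) * ‖x‖ =
        (1 + c₁) / 2 * ‖x‖ := by
      rw [hc₁']
      ring
    nlinarith
  have hc₃ : (1 + c₂) / 2 < 1 := by linarith
  have hc₄ : 0 < (1 + c₂) / 2 := by linarith
  obtain ⟨n, hn⟩ := exists_pow_lt_of_lt_one (show 0 < 1 / (2 * (1 + M)) by positivity) hc₃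
  obtain ⟨m, l, hl⟩ := (hcov.pow hS0 hSadd hc₄ (n + 1)).qc (R := 1 + M) (by positivity) hN1 hN2
  refine ⟨_, _, 1, m, l, by positivity, ?_, hl⟩
  rw [lt_div_iff₀ (by positivity)] at hn
  have h2 : ((1 + c₂) / 2) ^ (n + 1) ≤ ((1 + c₂) / 2) ^ n :=
    pow_le_pow_of_le_one hc₄.le hc₃.le (Nat.le_succ n)
  nlinarith

end Vale.Agent.P139Z.QC
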