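import Vale.Agent.P139Z.XEv
import Vale.Agent.P139Z.QC.Abs

/-!
Shifts in frequency, the low-frequency cutoff, compactness of truncated convolutions.
-/

open Set Filter Topology MeasureTheory Complex

namespace Vale.Agent.P139Z.QC

open XW XBase

variable {d k : ℕ}

theorem wt_mul_shift (η ξ : Fq d) (z : ℂ) :
    (wt k ξ : ℂ) * z = ((wt k ξ / wt k (ξ - η) : ℝ) : ℂ) * ((wt k (ξ - η) : ℂ) * z) := by
  rw [← mul_assoc, ofReal_div, div_mul_cancel₀ _ (wt_ne k _)]

theorem ratio_le (η ξ : Fq d) : |wt k ξ / wt k (ξ - η)| ≤ wt k η := by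
  rw [abs_of_pos (div_pos (wt_pos k _) (wt_pos k _)), div_le_iff₀ (wt_pos k _)]
  exact wt_le_mul_sub k ξ η

theorem continuous_ratio : Continuous fun q : Fq d × Fq d => wt k q.2 / wt k (q.2 - q.1) :=
  ((continuous_wt k).comp continuous_snd).div
    ((continuous_wt k).comp (continuous_snd.sub continuous_fst)) fun _ => (wt_pos k _).ne'

theorem integrable_shift (V : XW d k) (η : Fq d) :
    Integrable fun ξ => (wt k ξ : ℂ) * fn V (ξ - η) := by
  rw [funext fun ξ => wt_mul_shift η ξ (fn V (ξ - η))]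
  refine ((integrable_wt V le_rfl).comp_sub_right η).bdd_mul (c := wt k η)
    (continuous_ofReal.comp (continuous_ratio.comp
      (Continuous.prodMk_right η))).aestronglyMeasurable (Eventually.of_forall fun ξ => ?_)
  rw [norm_real, Real.norm_eq_abs]
  exact ratio_le η ξ

/-- Shift in frequency. -/
noncomputable def sh (V : XW d k) (η : Fq d) : XW d k := mk _ (integrable_shift V η)

theorem fn_sh (V : XW d k) (η : Fq d) : fn (sh V η) =ᵐ[volume] fun ξ => fn V (ξ - η) := fn_mk _ _

theorem ev_sh (V : XW d k) (η : Fq d) (y : Eu d) :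
    ev (sh V η) y = cexp (I * dot η y) * ev V y := by
  rw [sh, ev_mk, ev, evf, evf, ← integral_const_mul,
    ← integral_sub_right_eq_self (fun ξ => cexp (I * dot η y) * (cexp (I * dot ξ y) * fn V ξ)) η]
  refine integral_congr_ae (Eventually.of_forall fun ξ => ?_)
  simp only
  rw [XConv.e_add ξ η y, mul_assoc]

theorem tendsto_shift_L1 {g : Fq d → ℂ} (hg : Integrable g) (η₀ : Fq d) :
    Tendsto (fun η => ∫ ξ, ‖g (ξ - η) - g (ξ - η₀)‖) (𝓝 η₀) (𝓝 0) := by
  let τ : Fq d → C(Fq d, Fq d) := fun η => ⟨fun ξ => ξ - η, by fun_prop⟩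
  have h1 : Continuous τ := ContinuousMap.continuous_of_continuous_uncurry _
    (continuous_snd.sub continuous_fst)
  have h2 : ∀ η, MeasurePreserving (τ η) volume volume := fun η =>
    measurePreserving_sub_right volume η
  have h3 := Continuous.compMeasurePreservingLp (f := fun _ => hg.toL1 g) continuous_const h1 h2
    ENNReal.one_ne_top
  have h4 : ∀ η, Lp.compMeasurePreserving (τ η) (h2 η) (hg.toL1 g) =ᵐ[volume]
      fun ξ => g (ξ - η) := fun η =>
    (Lp.coeFn_compMeasurePreserving _ (h2 η)).trans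
      ((h2 η).quasiMeasurePreserving.ae_eq_comp hg.coeFn_toL1)
  refine (tendsto_iff_norm_sub_tendsto_zero.1 (h3.tendsto η₀)).congr fun η => ?_
  rw [L1.norm_eq_integral_norm]
  refine integral_congr_ae ?_
  filter_upwards [Lp.coeFn_sub (Lp.compMeasurePreserving (τ η) (h2 η) (hg.toL1 g))
    (Lp.compMeasurePreserving (τ η₀) (h2 η₀) (hg.toL1 g)), h4 η, h4 η₀] with ξ h5 h6 h7
  rw [h5, Pi.sub_apply, h6, h7]

theorem continuous_sh (V : XW d k) : Continuous (sh V) := by
  refine continuous_iff_continuousAt.2 fun η₀ => tendsto_iff_norm_sub_tendsto_zero.2 ?_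
  have hg := integrable_wt V le_rfl
  set g : Fq d → ℂ := fun ξ => (wt k ξ : ℂ) * fn V ξ with hg'
  have hg0 := (hg.comp_sub_right η₀).norm
  have hi : ∀ η, Integrable fun ξ =>
      |wt k ξ / wt k (ξ - η) - wt k ξ / wt k (ξ - η₀)| * ‖g (ξ - η₀)‖ := fun η =>
    hg0.bdd_mul (c := wt k η + wt k η₀) ((continuous_ratio.comp (Continuous.prodMk_right η)).sub
      (continuous_ratio.comp (Continuous.prodMk_right η₀))).abs.aestronglyMeasurable
      (Eventually.of_forall fun ξ => by
        rw [Real.norm_eq_abs, abs_abs]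
        exact (abs_sub _ _).trans (add_le_add (ratio_le η ξ) (ratio_le η₀ ξ)))
  have h1 : ∀ η, ‖sh V η - sh V η₀‖ ≤ wt k η * (∫ ξ, ‖g (ξ - η) - g (ξ - η₀)‖) +
      ∫ ξ, |wt k ξ / wt k (ξ - η) - wt k ξ / wt k (ξ - η₀)| * ‖g (ξ - η₀)‖ := by
    intro η
    have h2 : Integrable fun ξ => wt k η * ‖g (ξ - η) - g (ξ - η₀)‖ :=
      (((hg.comp_sub_right η).sub (hg.comp_sub_right η₀)).norm).const_mul (wt k η)
    rw [norm_eq, nrmX, ← integral_const_mul, ← integral_add h2 (hi η)]
    refine integral_mono_ae (integrable_wt_norm _ le_rfl) (h2.add (hi η)) ?_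
    filter_upwards [fn_sub (sh V η) (sh V η₀), fn_sh V η, fn_sh V η₀] with ξ h3 h4 h5
    rw [h3, h4, h5, ← norm_wt_mul, mul_sub, wt_mul_shift η ξ, wt_mul_shift η₀ ξ]
    have h6 : ∀ a b u v : ℂ, a * u - b * v = a * (u - v) + (a - b) * v := fun a b u v => by ring
    rw [h6]
    refine (norm_add_le _ _).trans (add_le_add ?_ ?_)
    · rw [norm_mul, norm_real, Real.norm_eq_abs]
      exact mul_le_mul_of_nonneg_right (ratio_le η ξ) (norm_nonneg _)
    · rw [norm_mul, ← ofReal_sub, norm_real, Real.norm_eq_abs]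
  have h2 : Tendsto (fun η => ∫ ξ, |wt k ξ / wt k (ξ - η) - wt k ξ / wt k (ξ - η₀)| *
      ‖g (ξ - η₀)‖) (𝓝 η₀) (𝓝 (∫ _ : Fq d, 0)) := by
    refine tendsto_integral_filter_of_dominated_convergence
      (fun ξ => (wt k η₀ + 1 + wt k η₀) * ‖g (ξ - η₀)‖)
      (Eventually.of_forall fun η => (hi η).aestronglyMeasurable) ?_ (hg0.const_mul _)
      (Eventually.of_forall fun ξ => ?_)
    · filter_upwards [((continuous_wt k).tendsto η₀).eventually
        (eventually_le_nhds (lt_add_one (wt k η₀)))] with η hη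
      refine Eventually.of_forall fun ξ => ?_
      rw [Real.norm_of_nonneg (by positivity)]
      exact mul_le_mul_of_nonneg_right ((abs_sub _ _).trans
        (add_le_add ((ratio_le η ξ).trans hη) (ratio_le η₀ ξ))) (norm_nonneg _)
    · have h3 := ((((continuous_ratio (k := k)).comp (Continuous.prodMk_left ξ)).sub
        (continuous_const (y := wt k ξ / wt k (ξ - η₀)))).abs.mul
        (continuous_const (y := ‖g (ξ - η₀)‖))).tendsto η₀
      simpa [Pi.mul_def] using h3
  have h3 := (((continuous_wt k).tendsto η₀).mul (tendsto_shift_L1 hg η₀)).add h2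
  rw [mul_zero, integral_zero, add_zero] at h3
  exact squeeze_zero (fun _ => norm_nonneg _) h1 h3

theorem exists_cut (d k : ℕ) {A : Set (Fq d)} (hA : MeasurableSet A) :
    ∃ L : XW d k →L[ℂ] XW d k, ∀ F, fn (L F) =ᵐ[volume] A.indicator (fn F) := by
  refine exists_clm (fun F => A.indicator (fn F)) 1 (fun F => ?_) (fun F G => ?_) (fun c F => ?_)
    fun F => ?_
  · refine ((integrable_wt F le_rfl).indicator hA).congr (Eventually.of_forall fun ξ => ?_)
    by_cases h : ξ ∈ A <;> simp [h]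
  · filter_upwards [fn_add F G] with ξ hξ
    by_cases h : ξ ∈ A <;> simp [h, hξ]
  · filter_upwards [fn_smul c F] with ξ hξ
    by_cases h : ξ ∈ A <;> simp [h, hξ]
  · rw [one_mul, norm_eq]
    refine integral_mono_of_nonneg (Eventually.of_forall fun ξ =>
      mul_nonneg (wt_pos k ξ).le (norm_nonneg _)) (integrable_wt_norm F le_rfl)
      (Eventually.of_forall fun ξ => ?_)
    exact mul_le_mul_of_nonneg_left (norm_indicator_le_norm_self _ _) (wt_pos k ξ).le

/-- The low-frequency part. -/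
noncomputable def lo (N : ℝ) : XW d k →L[ℂ] XW d k :=
  (exists_cut d k (measurableSet_closedBall (x := 0) (ε := N))).choose

theorem fn_lo (N : ℝ) (F : XW d k) :
    fn (lo N F) =ᵐ[volume] (Metric.closedBall 0 N).indicator (fn F) :=
  (exists_cut d k (measurableSet_closedBall (x := 0) (ε := N))).choose_spec F

theorem nrmX_hi_le {N : ℝ} (F : XW d k) {j : ℕ} {c : ℝ} (hc : 0 ≤ c)
    (h : ∀ ξ : Fq d, N < ‖ξ‖ → wt j ξ ≤ c * wt k ξ) : nrmX j (F - lo N F) ≤ c * ‖F‖ := by
  rw [norm_eq, nrmX, nrmX, ← integral_const_mul]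
  refine integral_mono_of_nonneg (Eventually.of_forall fun ξ =>
    mul_nonneg (wt_pos j ξ).le (norm_nonneg _)) ((integrable_wt_norm F le_rfl).const_mul c) ?_
  filter_upwards [fn_sub F (lo N F), fn_lo N F] with ξ h1 h2
  rw [h1, h2]
  by_cases h3 : ξ ∈ Metric.closedBall (0 : Fq d) N
  · rw [indicator_of_mem h3, sub_self, norm_zero, mul_zero]
    exact mul_nonneg hc (mul_nonneg (wt_pos k ξ).le (norm_nonneg _))
  · rw [indicator_of_notMem h3, sub_zero, ← mul_assoc]
    exact mul_le_mul_of_nonneg_right (h ξ (by simpa using h3)) (norm_nonneg _)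

theorem norm_hi_le (N : ℝ) (F : XW d k) : ‖F - lo N F‖ ≤ ‖F‖ := by
  have h := nrmX_hi_le (N := N) F (j := k) zero_le_one fun ξ _ => (one_mul _).ge
  rwa [one_mul, ← norm_eq] at h

theorem nrmX_pred_hi_le (hk : 1 ≤ k) {N : ℝ} (hN : 0 < N) (F : XW d k) :
    nrmX (k - 1) (F - lo N F) ≤ N⁻¹ * ‖F‖ := by
  refine nrmX_hi_le F (inv_nonneg.2 hN.le) fun ξ hξ => ?_
  obtain ⟨j, rfl⟩ := Nat.exists_eq_add_of_le' hk
  rw [Nat.add_sub_cancel, le_inv_mul_iff₀ hN, wt, wt, pow_succ']
  exact mul_le_mul_of_nonneg_right (by linarith) (by positivity)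

theorem conv_lo_eq (V : XW d k) (N : ℝ) (F : XW d k) :
    IntegrableOn (fun η => fn F η • sh V η) (Metric.closedBall 0 N) ∧
      conv V (lo N F) = ∫ η in Metric.closedBall 0 N, fn F η • sh V η := by
  have h1 : IntegrableOn (fun η => fn F η • sh V η) (Metric.closedBall 0 N) :=
    (integrable_fn F).integrableOn.smul_continuousOn (continuous_sh V).continuousOn
      (isCompact_closedBall 0 N)
  refine ⟨h1, ev_injective fun y => ?_⟩
  rw [ev_conv, ← evCLM_apply y (∫ η in Metric.closedBall 0 N, fn F η • sh V η),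
    ← ContinuousLinearMap.integral_comp_comm _ h1, ev, ev, XConv.evf_congr (fn_lo N F),
    ← integral_indicator measurableSet_closedBall]
  unfold evf
  rw [← integral_const_mul]
  refine integral_congr_ae (Eventually.of_forall fun η => ?_)
  by_cases h : η ∈ Metric.closedBall (0 : Fq d) N
  · simp only [indicator_of_mem h, map_smul, evCLM_apply, ev_sh, smul_eq_mul]
    simp only [ev, evf]
    ring
  · simp only [indicator_of_notMem h, mul_zero]

theorem conv_lo_compact (V : XW d k) (N R : ℝ) :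
    ∃ C : Set (XW d k), IsCompact C ∧ ∀ F : XW d k, ‖F‖ ≤ R → conv V (lo N F) ∈ C := by
  have hR : 0 < |R| + 1 := by positivity
  let C₁ := (fun z : ℂ × Fq d => z.1 • sh V z.2) ''
    (Metric.closedBall 0 (|R| + 1) ×ˢ Metric.closedBall 0 |N|)
  have hC₁ : IsCompact C₁ := ((isCompact_closedBall _ _).prod (isCompact_closedBall _ _)).image
    (continuous_fst.smul ((continuous_sh V).comp continuous_snd))
  have hm : ∀ (c : ℂ) (η : Fq d), ‖c‖ ≤ |R| + 1 → ‖η‖ ≤ |N| →
      c • sh V η ∈ closure (convexHull ℝ C₁) := fun c η hc hη =>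
    subset_closure (subset_convexHull ℝ C₁
      ⟨(c, η), ⟨mem_closedBall_zero_iff.2 hc, mem_closedBall_zero_iff.2 hη⟩, rfl⟩)
  refine ⟨_, isCompact_hull hC₁, fun F hF => ?_⟩
  obtain ⟨h1, h2⟩ := conv_lo_eq V N F
  rw [h2]
  have h0 := hm 0 0 (by rw [norm_zero]; exact hR.le) (by rw [norm_zero]; exact abs_nonneg N)
  rw [zero_smul] at h0
  have h3 := (integrable_fn F).norm.div_const (|R| + 1)
  refine integral_mem_of_convex (ρ := fun η => ‖fn F η‖ / (|R| + 1))
    (convex_convexHull ℝ C₁).closure isClosed_closure h0 h1 h3.integrableOn ?_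
    ((ae_restrict_mem measurableSet_closedBall).mono fun η hη => ⟨by positivity, ?_⟩)
  · refine (setIntegral_le_integral h3 (Eventually.of_forall fun η => by positivity)).trans ?_
    rw [integral_div, div_le_one hR]
    have h4 : ∫ η, ‖fn F η‖ = nrmX 0 F := by simp [nrmX, wt]
    rw [h4]
    have h5 := nrmX_mono F (Nat.zero_le k) le_rfl
    rw [← norm_eq] at h5
    linarith [le_abs_self R]
  · have hη' : ‖η‖ ≤ |N| := (mem_closedBall_zero_iff.1 hη).trans (le_abs_self N)
    by_cases hz : fn F η = 0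
    · exact ⟨0, h0, by simp [hz]⟩
    · have h4 : 0 < ‖fn F η‖ := norm_pos_iff.2 hz
      refine ⟨_, hm (((|R| + 1) / ‖fn F η‖ : ℝ) • fn F η) η ?_ hη', ?_⟩
      · rw [norm_smul, Real.norm_of_nonneg (by positivity), div_mul_cancel₀ _ h4.ne']
      · rw [← smul_assoc, smul_smul, div_mul_div_comm, mul_comm ‖fn F η‖,
          div_self (by positivity), one_smul]

end Vale.Agent.P139Z.QC
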